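import Vale.Agent.P269.VirAx

/-!
# P269: the Virasoro constraints for complete intersections with `K ≥ 0`, and a finite reduction

Gromov-Witten theory enters through its basic properties (`GWData.GWAxioms`): graded symmetry, the
selection rule for Hodge bidegrees, the string, dilaton and divisor equations, and the genus zero
topological recursion relation. The operators `L_k` are those of Eguchi-Hori-Xiong, Katz and
Getzler, in superspace form, all Hodge types and odd classes included.
* all constraints hold in genus zero;
* all constraints hold in genus `g` and class `d` as soon as `(1-g)(dim-3) + c₁·d ≤ 0`;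
* so the whole conjecture (`L_k Z = 0`, all `k`, all genera, all classes, all insertions) holds for
  every complete intersection of dimension at least three with `∑ d_i ≥ N + 1`;
* for the others, the constraints at each `(g, d)` follow from an explicit finite list; if the
  dimension is at least `4`, so do, for each `d`, all the constraints in all genera.
-/

set_option linter.unusedSectionVars false

namespace Vale.Agent.P269

/-- Numerical type of a complete intersection of multidegree `D` in `ℙ^N`: its dimension is
`N - c`, and `c₁ = (N + 1 - ∑ d_i) h`, where `h` has degree `deg d ≥ 0` on the curve class `d`. -/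
def GWData.IsCI {ι B : Type} [AddCommMonoid B] (X : GWData ι B) (N : ℕ) (D : List ℕ) : Prop :=
  X.dim + D.length = N ∧ ∃ deg : B →+ ℕ, ∀ d, X.c1 d = ((N : ℤ) + 1 - D.sum) * deg d

end Vale.Agent.P269

open Vale.Agent.P269 in
theorem Vale.Agent.Results.P269.VirasoroReduction.result
    {ι B : Type} [Fintype ι] [DecidableEq ι] [AddCommMonoid B] [DecidableEq B]
    [Finset.HasAntidiagonal B] (X : GWData ι B) (hX : X.GWAxioms) :
    -- (1) complete intersections of dimension at least three with `K ≥ 0`: all constraints
    (∀ (N : ℕ) (D : List ℕ), X.IsCI N D → 3 ≤ X.dim → N + 1 ≤ D.sum →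
      ∀ n g d S, X.vir n g d S = 0) ∧
    -- (2) genus zero
    (∀ n d S, X.vir n 0 d S = 0) ∧
    -- (3) the range where all constraints hold
    (∀ (g : ℕ) (d : B), (1 - (g : ℤ)) * ((X.dim : ℤ) - 3) + X.c1 d ≤ 0 →
      ∀ n S, X.vir n g d S = 0) ∧
    -- (4) reduction to an explicit finite list
    (X.HasDivisors →
      (∀ (g : ℕ) (d : B), (∀ n S, X.Left g d n S → X.vir n g d S = 0) →
        ∀ n S, X.vir n g d S = 0) ∧
      (∀ (g : ℕ) (d : B), {x : ℕ × List (Ins ι) | X.Left g d x.1 x.2}.Finite) ∧
      (4 ≤ X.dim → ∀ d : B,
        {x : ℕ × ℕ × List (Ins ι) | X.Left x.1 d x.2.1 x.2.2}.Finite)) := by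
  have h0 := GWData.isGW_of hX
  have hzero : ∀ n d S, X.vir n 0 d S = 0 := fun n d S =>
    GWData.vir_zero h0 (GWData.dilaton_of hX) (GWData.trr_of hX) n d S
  refine ⟨?_, hzero, fun g d h n S => GWData.vir_of_nonpos h0 g d h n S, ?_⟩
  · rintro N D ⟨_, deg, hdeg⟩ hdim hsum n g d S
    by_cases hg : g = 0
    · subst hg; exact hzero n d S
    · apply GWData.vir_of_nonpos h0 g d
      have h1 : (1 - (g : ℤ)) * ((X.dim : ℤ) - 3) ≤ 0 :=
        mul_nonpos_of_nonpos_of_nonneg (by omega) (by omega)
      have h2 : X.c1 d ≤ 0 := by
        rw [hdeg]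
        apply mul_nonpos_of_nonpos_of_nonneg
        · omega
        · exact Int.natCast_nonneg _
      show (1 - (g : ℤ)) * ((X.dim : ℤ) - 3) + X.c1 d ≤ 0
      linarith
  · intro hV
    refine ⟨fun g d hL n S => ?_, fun g d => GWData.left_finite X g d,
      fun hdim d => GWData.left_finite_all X hdim d⟩
    by_cases hg : g = 0
    · subst hg; exact hzero n d S
    · exact GWData.vir_of_left h0 (GWData.dilaton_of hX) hV g d (by omega) hL n S
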